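import Vale.Agent.P192.Sys

/-! The self-simulating rewriting system `sys N`: letters, rules, zero conditions. -/

namespace Vale.Agent.P192

inductive Trk | d | b
  deriving DecidableEq

inductive Lane | d | b | u
  deriving DecidableEq

inductive Ph | A | B
  deriving DecidableEq

inductive Sd | L | R
  deriving DecidableEq

inductive Op | small | load (β : Ph) | chk
  deriving DecidableEq

inductive Role | home | relay
  deriving DecidableEq

inductive PTag | respL | respR | tr (ph : Ph) (o : Op)
  deriving DecidableEq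

inductive Kind
  | mvS | mvP (pt : PTag) | hs | opn | hand | dh | lm (l : Lane) | cross (t : Trk) | chk
  | swd | eqd | mvc
  deriving DecidableEq

inductive WOp | sw (t : Trk) | eq
  deriving DecidableEq

inductive Tag
  | idle | pre (κ : Kind) (ph : Ph) | half | got (κ : Kind) (ph : Ph) | acc (o : Option Trk)
  | opnL | opnR (o : Option Trk) | ful | wrk (w : WOp) | dresp (t : Trk) | car | ret
  | all (β : Bool) | pend (ph : Ph) (o : Op)
  deriving DecidableEq

/-- Key field: the key is to the right, to the left, or here (small or with a payload). -/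
inductive KF (P : Type) | R | L | sm (t : Tag) | fu (pt : PTag) (p : P)
  deriving DecidableEq

/-- Token field. -/
inductive TF | R | L | A | B
  deriving DecidableEq

/-- Registers with payload type `P`. -/
@[ext] structure RegG (P : Type) where
  first : Bool
  last : Bool
  kf : KF P
  tf : TF
  d : Option Bool
  b : Option Bool
  u : Option Bool
  doom : Bool
  deriving DecidableEq

inductive Pay | unit | bit (β : Bool) | trk (t : Trk) | tag (t : Tag) | era (α : RegG Unit)
  deriving DecidableEq

abbrev Reg := RegG Pay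

inductive Core
  | free (q : Reg) | LS (κ : Kind) (ph : Ph) (sd : Sd) (q : Reg) | LC (q : Reg)
  | LA0 (ph : Ph) (o : Op) (ro : Role) (q : Reg) | LA1 (o : Op) (ro : Role) (q : Reg)
  deriving DecidableEq

/-- Letters. -/
@[ext] structure Ent where
  q : Reg
  a : ℕ
  n : ℕ
  oc : Option Core

abbrev Wd := ℕ → Ent

def Trk.lane : Trk → Lane
  | .d => .d
  | .b => .b

def Kind.trk : Kind → Option Trk
  | .swd => some .d
  | .eqd => some .d
  | .mvc => some .b
  | _ => none

def Kind.wop : Kind → Option WOp
  | .swd => some (.sw .d)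
  | .eqd => some .eq
  | .mvc => some (.sw .b)
  | _ => none

namespace KF

variable {P : Type}

def isKey : KF P → Prop
  | R => False
  | L => False
  | _ => True

def era : KF P → KF Unit
  | R => R
  | L => L
  | sm t => sm t
  | fu pt _ => fu pt ()

/-- Link class towards the right neighbour: 0 none, 1 closed, 2 open. -/
def clsL : KF P → ℕ
  | sm .half => 1
  | sm .opnL => 2
  | sm .ful => 2
  | sm (.wrk _) => 2
  | fu .respL _ => 2
  | _ => 0

/-- Link class towards the left neighbour. -/
def clsR : KF P → ℕ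
  | sm (.got _ _) => 1
  | sm (.acc _) => 1
  | sm (.opnR _) => 2
  | sm (.dresp _) => 2
  | fu .respR _ => 2
  | _ => 0

/-- The track that is open towards the left neighbour. -/
def opent : KF P → Option Trk
  | sm (.opnR o) => o
  | sm (.dresp t) => some t
  | _ => none

def isF : KF P → Prop
  | sm .ful => True
  | sm (.wrk _) => True
  | _ => False

def isW : KF P → Prop
  | sm (.wrk _) => True
  | sm (.dresp _) => True
  | fu .respL _ => True
  | fu .respR _ => True
  | _ => False

/-- Allowed key fields of two adjacent siblings. -/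
def ok {P' : Type} (k : KF P) (k' : KF P') : Prop :=
  (k = R ∧ k' ≠ L) ∨ (k ≠ R ∧ k' = L)

end KF

/-- Allowed token fields of two adjacent siblings. -/
def TF.ok (t t' : TF) : Prop := (t = .R ∧ t' ≠ .L) ∨ (t ≠ .R ∧ t' = .L)

namespace RegG

variable {P : Type}

def lane (q : RegG P) : Lane → Option Bool
  | .d => q.d
  | .b => q.b
  | .u => q.u

def setL (q : RegG P) : Lane → Option Bool → RegG P
  | .d, v => { q with d := v }
  | .b, v => { q with b := v }
  | .u, v => { q with u := v }

def key (q : RegG P) (t : Tag) : RegG P := { q with kf := .sm t }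

def full (q : RegG P) (pt : PTag) (p : P) : RegG P := { q with kf := .fu pt p }

def dm (q : RegG P) : RegG P := { q with doom := true }

def setT (q : RegG P) (t : TF) : RegG P := { q with tf := t }

def era (q : RegG P) : RegG Unit :=
  ⟨q.first, q.last, q.kf.era, q.tf, q.d, q.b, q.u, q.doom⟩

/-- Exchange the contents of the upper lane and of a track. -/
def swapU (q : RegG P) (t : Trk) : RegG P := (q.setL .u (q.lane t.lane)).setL t.lane q.u

end RegG

/-- The source register of a key move, from the register left behind. -/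
def src (t : Tag) (q : Reg) : Reg :=
  match t with
  | .opnL => if q.u = none then q.key t else q.dm
  | .ful => if q.u ≠ none then q.key t else q.dm
  | .wrk (.sw k) => if q.u ≠ none ∧ q.lane k.lane ≠ none then (q.swapU k).key t else q.dm
  | .wrk .eq => if q.u ≠ none ∧ q.u = q.d then q.key t else q.dm
  | .car => if q.b = some false then (q.setL .b (some true)).key t else q.dm
  | .ret => if q.b = some false then q.key t else q.dm
  | _ => q.key t

/-- Compatibility of adjacent registers. -/
def compatS (α : RegG Unit) (r : Reg) : Prop :=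
  α.last = r.first ∧
  (α.last = false → α.kf.ok r.kf ∧ α.tf.ok r.tf ∧ (r.kf.isKey → ¬r.kf.isF → α.u = none)) ∧
  (α.last = true → (α.kf.isKey → r.kf.isKey → α.kf.clsL = r.kf.clsR) ∧
    (α.u ≠ none → r.kf.isKey → r.kf.opent ≠ none) ∧
    (α.kf = .sm .ful → α.u ≠ none → ∀ t, r.kf = .sm (.opnR (some t)) → r.lane t.lane = none))

/-- Condition on the left register after a binary rule. -/
def QL : Kind → Reg → Prop
  | .mvS, q => q.last = false ∧ q.kf = .R
  | .mvP _, q => q.last = false ∧ q.kf = .R
  | .hs, q => q.last = true ∧ q.kf = .sm .half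
  | .opn, q => q.last = true ∧ q.kf = .sm .opnL ∧ q.u = none
  | .hand, q => q.last = true ∧ q.kf = .sm .opnL
  | .dh, q => q.last = true ∧ q.kf = .sm .ful ∧ q.u ≠ none
  | .lm l, q => q.last = false ∧ q.lane l = none
  | .cross _, q => q.last = true ∧ q.u = none
  | .chk, _ => True
  | .swd, q => q.last = false
  | .eqd, q => q.last = false
  | .mvc, q => q.last = false ∧ q.tf = .R

/-- The left register before a binary rule, from the one after it and the payload. -/
def unext : Kind → Reg → Pay → Reg
  | .mvS, q, .tag t => src t q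
  | .mvP pt, q, p => q.full pt p
  | .hs, q, .tag (.pre κ ph) => q.key (.pre κ ph)
  | .opn, q, _ => q.key .half
  | .hand, q, p => q.full .respL p
  | .dh, q, .trk t => src (.wrk (.sw t)) q
  | .lm l, q, .bit β => q.setL l (some β)
  | .cross _, q, .bit β => q.setL .u (some β)
  | .chk, q, p => if p = .era q.era then q else q.dm
  | .swd, q, _ => q
  | .eqd, q, _ => q
  | .mvc, q, _ => q.setT .B
  | _, q, _ => q.dm

/-- Condition on the right register before a binary rule. -/
def PR : Kind → Reg → Prop
  | .mvS, r => r.first = false ∧ r.kf = .L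
  | .mvP _, r => r.first = false ∧ r.kf = .L
  | .hs, r => r.first = true ∧ r.kf = .sm .idle
  | .opn, r => r.first = true ∧ ∃ o, r.kf = .sm (.acc o)
  | .hand, r => r.first = true ∧ r.kf = .sm (.opnR none)
  | .dh, r => r.first = true ∧ ∃ t, r.kf = .sm (.opnR (some t))
  | .lm l, r => r.first = false ∧ r.lane l = none ∧ (l = .u → ¬r.kf.isKey)
  | .cross t, r => r.first = true ∧ r.kf = .sm (.opnR (some t)) ∧ r.lane t.lane = none
  | .chk, _ => True
  | .swd, r => r.first = false
  | .eqd, r => r.first = false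
  | .mvc, r => r.first = false ∧ r.tf = .L

/-- The tag produced by opening a link on the right side. -/
def opnOf : KF Pay → Tag
  | .sm (.acc o) => .opnR o
  | _ => .idle

/-- The right register after a binary rule. -/
noncomputable def ins : Kind → Reg → Pay → Reg
  | .mvS, r, .tag t => r.key t
  | .mvP pt, r, p => r.full pt p
  | .hs, r, .tag (.pre κ ph) => r.key (.got κ ph)
  | .opn, r, _ => r.key (opnOf r.kf)
  | .hand, r, p => r.full .respR p
  | .dh, r, .trk t => if r.kf = .sm (.opnR (some t)) then r.key (.dresp t) else r.dm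
  | .lm l, r, .bit β => r.setL l (some β)
  | .cross t, r, .bit β => r.setL t.lane (some β)
  | .chk, r, p => open Classical in if ∃ α, p = .era α ∧ compatS α r then r else r.dm
  | .swd, r, _ => r
  | .eqd, r, _ => r
  | .mvc, r, _ => r.setT .A
  | _, r, _ => r.dm

/-- The check rule fires only on incompatible registers. -/
def okS (κ : Kind) (r : Reg) (p : Pay) : Prop := κ = .chk → ¬∃ α, p = .era α ∧ compatS α r

/-- Register conditions whose failure is a zero. -/
structure uok (q : Reg) : Prop where
  doom : q.doom = false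
  fl : q.first = true → q.last = false
  fk : q.first = true → q.kf ≠ .L ∧ q.tf ≠ .L
  lk : q.last = true → q.kf ≠ .R ∧ q.tf ≠ .R ∧ q.tf ≠ .B
  ku : q.kf.isKey → ¬q.kf.isF → q.kf ≠ .sm .opnL → q.u = none
  kt : q.kf.isKey → ∀ t : Trk, q.kf.opent ≠ some t → q.lane t.lane ≠ none
  ka : ∀ β, q.kf = .sm (.all β) → q.b ≠ some (!β)
  ke : q.last = true → q.kf = .sm (.wrk .eq) → q.u ≠ none → q.u ≠ q.d

/-- The common value of all counter bits forced by the register. -/
def demand (q : Reg) (β : Bool) : Prop :=
  ((q.tf = .R ∨ q.tf = .L ∨ (q.tf = .A ∧ q.first = true)) ∧ β = false) ∨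
    (q.tf = .A ∧ q.first = false ∧ q.last = true ∧ β = true)

/-- The carry stops. -/
def U5 (q q' : Reg) : Prop :=
  q.kf = .sm .car ∧ q.b = some false ∧ q' = (q.setL .b (some true)).key .ret

def Tag.ld : Tag → Option PTag
  | .opnL => some .respL
  | .opnR none => some .respR
  | .pend ph o => some (.tr ph o)
  | _ => none

def Tag.beta : Tag → Ph
  | .pend ph _ => ph
  | _ => .A

def shape : Op → Role → Reg → Prop
  | _, .relay, q => q.last = true
  | .small, .home, q => q.first = true
  | .load β, .home, q => q.first = true ∧ ∃ t pt, q.kf = .sm t ∧ t.ld = some pt ∧ t.beta = β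
  | .chk, .home, _ => True

/-- The payload tag attached to the small tag of a key field. -/
def ldOf : KF Pay → PTag
  | .sm t => t.ld.getD .respL
  | _ => .respL

/-- Put the payload back into a register. -/
def merge : Ph → Op → Role → Reg → Pay → Reg
  | ph, o, .relay, q, p => q.full (.tr ph o) p
  | _, .small, .home, q, .tag t => q.key t
  | _, .small, .home, q, _ => q.dm
  | .A, .load _, .home, q, p => if p = .unit then q else q.dm
  | .B, .load _, .home, q, p => q.full (ldOf q.kf) p
  | _, .chk, .home, q, p => if p = .era q.era then q else q.dm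

/-- Consistency of the key with the core. -/
def compatA {P : Type} : KF P → Core → Prop
  | .sm .idle, c => ∃ q, c = .free q
  | .sm (.got _ _), c => ∃ q, c = .free q
  | .sm (.pre κ ph), c => ∃ q, c = .LS κ ph .L q ∧ (ph = .B → QL κ q)
  | .sm .half, c => ∃ κ ph q, c = .LS κ ph .L q ∧ (ph = .B → QL κ q)
  | .sm .opnL, c => ∃ κ ph q, c = .LS κ ph .L q ∧ (ph = .B → QL κ q)
  | .sm .ful, c => ∃ κ ph q, c = .LS κ ph .L q ∧ (ph = .B → QL κ q)
  | .sm (.wrk w), c => ∃ κ q, c = .LS κ .B .L q ∧ κ.wop = some w ∧ QL κ q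
  | .sm (.acc o), c => ∃ κ ph q, c = .LS κ ph .R q ∧ κ.trk = o ∧ (ph = .A → PR κ q)
  | .sm (.opnR o), c => ∃ κ ph q, c = .LS κ ph .R q ∧ κ.trk = o ∧ (ph = .A → PR κ q)
  | .sm (.dresp t), c => ∃ κ q, c = .LS κ .A .R q ∧ κ.wop = some (.sw t) ∧ PR κ q
  | .sm .car, c => ∃ q, c = .LC q ∧ q.tf = .A ∧ q.last = false
  | .sm .ret, c => ∃ q, c = .LC q ∧ q.tf = .A ∧ q.last = false
  | .sm (.all β), c => ∃ q, c = .LC q ∧ demand q β
  | .sm (.pend ph o), c => ∃ ro q, c = .LA0 ph o ro q
  | .fu .respL _, c => ∃ κ q, c = .LS κ .B .L q ∧ κ.trk = none ∧ QL κ q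
  | .fu .respR _, c => ∃ κ q, c = .LS κ .A .R q ∧ κ.trk = none ∧ PR κ q
  | .fu (.tr _ o) _, c => ∃ ro q, c = .LA1 o ro q ∧ shape o ro q
  | .R, _ => True
  | .L, _ => True

/-- Operations on a payload and a core. -/
inductive Act : Op → Pay → Core → Pay → Core → Prop
  | s1 {q q' : Reg} : U5 q q' → Act .small (.tag .idle) (.free q) (.tag .idle) (.free q')
  | s2 {κ ph q} : (ph = .B → QL κ q) →
      Act .small (.tag .idle) (.free q) (.tag (.pre κ ph)) (.LS κ ph .L q)
  | s3 {κ ph q} : (ph = .A → PR κ q) →
      Act .small (.tag (.got κ ph)) (.free q) (.tag (.acc κ.trk)) (.LS κ ph .R q)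
  | s4 {κ ph q} : Act .small (.tag .opnL) (.LS κ ph .L q) (.tag .ful) (.LS κ ph .L q)
  | s5 {κ w q} : κ.wop = some w → QL κ q →
      Act .small (.tag .opnL) (.LS κ .A .L (unext κ q .unit)) (.tag (.wrk w)) (.LS κ .B .L q)
  | s6 {κ t q} : κ.wop = some (.sw t) → PR κ q →
      Act .small (.tag (.dresp t)) (.LS κ .A .R q) (.tag (.opnR (some t)))
        (.LS κ .B .R (ins κ q .unit))
  | s7 {q : Reg} : q.tf = .A → q.last = false → Act .small (.tag .idle) (.free q) (.tag .car) (.LC q)
  | s8 {q : Reg} : q.tf = .A → q.last = false →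
      Act .small (.tag .ret) (.LC q) (.tag .idle) (.free (q.setT .B))
  | s9 {q β} : demand q β → Act .small (.tag .idle) (.free q) (.tag (.all β)) (.LC q)
  | s10 {ph o ro q} : Act .small (.tag .idle) (.free q) (.tag (.pend ph o)) (.LA0 ph o ro q)
  | l1 {β κ q p} : κ.trk = none → QL κ q →
      Act (.load β) .unit (.LS κ .A .L (unext κ q p)) p (.LS κ .B .L q)
  | l2 {β κ q p} : κ.trk = none → PR κ q → okS κ q p →
      Act (.load β) .unit (.LS κ .B .R (ins κ q p)) p (.LS κ .A .R q)
  | l3 {β o ro q p} : shape o ro q →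
      Act (.load β) .unit (.LA0 β o ro (merge β o ro q p)) p (.LA1 o ro q)

/-- Zero condition for an erased register against a core slot. -/
def ZA (α : RegG Unit) (oc : Option Core) : Prop :=
  (α.first = true ∧ ∀ c, oc = some c → (¬compatA α.kf c ∨ ∃ q, c = .free q ∧ ¬uok q)) ∨
    (α.first = false ∧ α.last = false ∧ oc ≠ none)

/-- Unary rules. -/
inductive Step1 (N : ℕ) : Ent → Ent → Prop
  | u5 {q q' a n oc} : U5 q q' → Step1 N ⟨q, a, n, oc⟩ ⟨q', a, n, oc⟩
  | u2 {q a n oc} : q.tf = .A → q.last = false → n + 1 < N →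
      Step1 N ⟨q, a, n, oc⟩ ⟨q.setT .B, a, n + 1, oc⟩
  | act {o ro q p c p' c' a n} : shape o ro q → Act o p c p' c' →
      Step1 N ⟨merge .A o ro q p, a, n, some c⟩ ⟨merge .B o ro q p', a, n, some c'⟩

/-- Data of the left letter after a binary rule. -/
def da (κ : Kind) (a a' : ℕ) : ℕ := if κ = .swd then a' else a

/-- Counter of the left letter after a binary rule. -/
def dn (κ : Kind) (n n' : ℕ) : ℕ := if κ = .mvc then n' else n

/-- Binary rules. -/
inductive Step2 : Ent → Ent → Ent → Ent → Prop
  | mk {κ q r p a n oc a' n' oc'} : QL κ q → PR κ r → okS κ r p →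
      Step2 ⟨unext κ q p, a, n, oc⟩ ⟨r, a', n', oc'⟩ ⟨q, da κ a a', dn κ n n', oc⟩
        ⟨ins κ r p, da κ a' a, dn κ n' n, oc'⟩

/-- Unary zeros. -/
def Zero1 (N : ℕ) (x : Ent) : Prop :=
  ¬uok x.q ∨ N ≤ x.a ∨ N ≤ x.n ∨ (∃ β, demand x.q β ∧ x.n ≠ if β then N - 1 else 0) ∨
    ZA x.q.era x.oc ∨
    (x.q.last = true ∧ ∃ p, x.q.kf = .fu (.tr .A .chk) p ∧ ∀ α, p = .era α → ZA α x.oc)

/-- Binary zeros. -/
def Zero2 (x y : Ent) : Prop := x.q.last = false ∧ x.a = y.a

/-- The system of level size `N`. -/
def sys (N : ℕ) : Sys Ent := ⟨Step1 N, Step2, Zero1 N, Zero2⟩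

/-- The standard cell representing a letter of `sys (2 ^ N)`. -/
def lift (N : ℕ) (x : Ent) : Wd := fun j =>
  ⟨⟨decide (j = 0), decide (j + 1 = N), if j = 0 then .sm .idle else .L,
    if j = 0 then .A else .L, some (x.a.testBit j), some (x.n.testBit j), none,
    decide (2 ^ N ≤ x.a ∨ 2 ^ N ≤ x.n)⟩,
   j, 0, if j = 0 then some (.free x.q) else if j + 1 = N then x.oc else none⟩

end Vale.Agent.P192
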